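import Vale.Agent.P305GL.Basic
import Vale.Agent.P305SC.Pure

/-!
# A matched edge is labelled: the invariant
-/

namespace Vale.Agent.P305PR

open Vale.Agent.P305 Vale.Agent.P305E Vale.Agent.P305C Vale.Agent.P305LC Vale.Agent.P305N
  Vale.Agent.P305BL Vale.Agent.P305GH Vale.Agent.P305BG Vale.Agent.P305O Vale.Agent.P305GL Finset
open Vale.Agent.P305FL (PL Lev pot)

/-- The vertex `w` gets the inner name `y`, the vertex `v` gets the outer name `m`. -/
def upd (s : S) (w v y m c : ℕ) (ns : NT) : S :=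
  ⟨(s.own.set w y).set v m, s.mt, (s.cid.set w y).set v m, (s.vx.set s.nc w).set (s.nc + 1) v,
    (s.mem.set y [w]).set m [v], (s.sz.set y 1).set m 1, s.top.set m v, s.bs, ns, c, s.cm⟩

@[fun_prop] theorem pure_upd {α : Type} [Rep α] {s : α → S} {w v y m c : α → ℕ} {ns : α → NT}
    (h1 : Pure s) (h2 : Pure w) (h3 : Pure v) (h4 : Pure y) (h5 : Pure m) (h6 : Pure c)
    (h7 : Pure ns) : Pure fun a => upd (s a) (w a) (v a) (y a) (m a) (c a) (ns a) := by
  unfold upd; fun_prop

variable {β : Type} [Rep β] {E : Env β} {x : Pm} {s : S} {g : Gs} {a w v k k' : ℕ} {ns : NT}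

/-- The new state. -/
abbrev nS (s : S) (w v : ℕ) (ns : NT) : S := upd s w v (4 * s.nc) (4 * s.nc + 4) (s.nc + 2) ns

/-- The new ghost state. -/
def nG (x : Pm) (s : S) (g : Gs) (a k k' : ℕ) : Gs :=
  { g with H := g.H.pair x.Q x.F a (4 * s.nc) (4 * s.nc + 4) (4 * s.nc + 4),
           V := (g.V.pair k (4 * s.nc + 4)).add k' (s.res a) }

/-- The situation. -/
structure Sit (x : Pm) (s : S) (g : Gs) (a w v k k' : ℕ) : Prop where
  h : Core x s g (some a) []
  aO : a ∈ g.H.O
  ua : s.own.get (s.vn a) = s.res a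
  far : s.far x.toPr a = w
  wn : w < x.n
  vn : v < x.n
  ow : s.own.get w = 0
  ov : s.own.get v = 0
  mw : s.mt.get w = v
  mv : s.mt.get v = w
  ne : v ≠ w
  k3 : k / 3 = 4 * s.nc
  k3' : k' / 3 = 4 * s.nc
  kd : k % 3 < x.deg w ∧ x.nbr w (k % 3) = v
  kd' : k' % 3 < x.deg w ∧ x.nbr w (k' % 3) = s.vn a

theorem own_eq (z : ℕ) : (nS s w v ns).own.get z =
    if z = v then 4 * s.nc + 4 else if z = w then 4 * s.nc else s.own.get z := by
  simp only [upd, Arr.get_set]

theorem cid_eq (z : ℕ) : (nS s w v ns).cid.get z =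
    if z = v then 4 * s.nc + 4 else if z = w then 4 * s.nc else s.cid.get z := by
  simp only [upd, Arr.get_set]

theorem vn_old {z : ℕ} (hz : z < 4 * s.nc) : (nS s w v ns).vn z = s.vn z := by
  simp only [upd, S.vn, Arr.get_set]
  rw [if_neg (by omega), if_neg (by omega)]

theorem vn_y : (nS s w v ns).vn (4 * s.nc) = w := by
  simp only [upd, S.vn, Arr.get_set]
  rw [if_neg (by omega), if_pos (by omega)]

theorem vn_m : (nS s w v ns).vn (4 * s.nc + 4) = v := by
  simp only [upd, S.vn, Arr.get_set]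
  rw [if_pos (by omega)]

theorem sz_old {z : ℕ} (hz : z < 4 * s.nc) : (nS s w v ns).sz.get z = s.sz.get z := by
  simp only [upd, Arr.get_set]
  rw [if_neg (by omega), if_neg (by omega)]

theorem mem_I {z : ℕ} : z ∈ (nG x s g a k k').V.I ↔ z = k / 3 ∨ z ∈ g.V.I := mem_insert

theorem mem_P {z : ℕ} : z ∈ (nG x s g a k k').V.P ↔ z = 4 * s.nc + 4 ∨ z ∈ g.V.P := mem_insert

theorem tl_eq (j : ℕ) : (nG x s g a k k').V.tl j =
    if j = k' then s.res a else if j = k then 4 * s.nc + 4 else g.V.tl j := by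
  simp only [nG, P305N.Vw.add, P305N.Vw.pair, Function.update_apply]

theorem dt_eq (z : ℕ) : (nG x s g a k k').V.dt z =
    if z = k / 3 then 0 else if z = 4 * s.nc + 4 then 0 else g.V.dt z := by
  simp only [nG, P305N.Vw.add, P305N.Vw.pair, Function.update_apply]

namespace Sit

theorem own_lt (t : Sit x s g a w v k k') (z : ℕ) : s.own.get z < 4 * s.nc := by
  by_cases e : s.own.get z = 0
  · have := t.h.nc_pos
    omega
  · exact (t.h.name (t.h.own z e).2.1).2.1

theorem old (t : Sit x s g a w v k k') {z : ℕ} (hz : s.own.get z ≠ 0) :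
    (nS s w v ns).own.get z = s.own.get z ∧ (nS s w v ns).cid.get z = s.cid.get z := by
  have h1 : z ≠ v := fun e => hz (e ▸ t.ov)
  have h2 : z ≠ w := fun e => hz (e ▸ t.ow)
  rw [own_eq, cid_eq]
  simp only [h1, h2, if_false, and_self]

theorem res_old (t : Sit x s g a w v k k') {z : ℕ} (hz : z < 4 * s.nc) :
    (nS s w v ns).res z = s.res z := by
  have := t.ow
  have := t.ov
  unfold S.res
  rw [vn_old hz, own_eq, cid_eq]
  grind

theorem res_m : (nS s w v ns).res (4 * s.nc + 4) = 4 * s.nc + 4 := by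
  unfold S.res
  rw [vn_m, own_eq, cid_eq]
  simp

theorem aP (t : Sit x s g a w v k k') : s.res a ∈ g.V.P := t.h.ndP t.aO

theorem kk (t : Sit x s g a w v k k') : k ≠ k' := fun e => by
  have h1 := t.kd.2
  rw [e, t.kd'.2] at h1
  exact t.h.ne0 (.inr t.aP) (by rw [← t.ua, h1, t.ov])

theorem tl_k (t : Sit x s g a w v k k') {j : ℕ} (hj : j / 3 = 4 * s.nc) : g.V.tl j = 0 := by
  by_contra e
  exact (t.h.new hj.ge).2.1 (t.h.ok.arc j e).2

theorem tl_old (t : Sit x s g a w v k k') {j : ℕ} (hj : g.V.tl j ≠ 0) :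
    (nG x s g a k k').V.tl j = g.V.tl j := by
  rw [tl_eq, if_neg fun e : j = k' => hj (t.tl_k (e ▸ t.k3')),
    if_neg fun e : j = k => hj (t.tl_k (e ▸ t.k3))]

theorem live_eq (t : Sit x s g a w v k k') :
    (nS s w v ns).live x.n = insert w (insert v (s.live x.n)) := by
  have := t.wn
  have := t.vn
  have := t.h.nc_pos
  ext z
  simp only [mem_insert, mem_live, own_eq]
  grind

theorem done (t : Sit x s g a w v k k') {z i : ℕ} (hz : s.own.get z ≠ 0) (d : Done x s g z i) :
    Done x (nS s w v ns) (nG x s g a k k') z i := by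
  rcases d with d | d | ⟨j, d, d'⟩
  · exact .inl (by rw [(t.old hz).1, (t.old (d ▸ hz)).1, d])
  · have h1 : x.nbr z i ≠ v := fun e => t.ne (by rw [← t.mv, ← e, d.2])
    have h2 : x.nbr z i ≠ w := fun e => t.ne (by rw [← t.mw, ← e, d.2])
    exact .inr (.inl ⟨by rw [own_eq, if_neg h1, if_neg h2, d.1], d.2⟩)
  · have h1 : g.V.tl j ≠ 0 := d' ▸ hz
    have h2 := t.h.ne0 (.inl (t.h.ok.arc j h1).2)
    exact .inr (.inr ⟨j, by rw [(t.old (d ▸ h2)).1, d], by rw [t.tl_old h1, (t.old hz).1, d']⟩)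

theorem core (t : Sit x s g a w v k k')
    (hn : P305N.Inv x.b x.U ((g.V.pair k (4 * s.nc + 4)).add k' (s.res a)) ns) :
    Core x (nS s w v ns) (nG x s g a k k') none [4 * s.nc + 4] := by
  have h := t.h
  have hy := h.new (a := 4 * s.nc) le_rfl
  have hm := h.new (a := 4 * s.nc + 4) (by omega)
  have hc := h.nc_pos
  have hl := t.own_lt
  have k3 := t.k3
  have ne := t.ne
  have nI : ∀ z ∈ g.V.I, z ≠ 0 ∧ z < 4 * s.nc := fun z hz =>
    ⟨h.ne0 (.inl hz), (h.name (.inl hz)).2.1⟩
  have nP : ∀ z ∈ g.V.P, z ≠ 0 ∧ z < 4 * s.nc := fun z hz =>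
    ⟨h.ne0 (.inr hz), (h.name (.inr hz)).2.1⟩
  have ow := t.ow
  have ov := t.ov
  have now := h.now a rfl
  have tri : ∀ y, y ∈ (nG x s g a k k').V.I ∨ y ∈ (nG x s g a k k').V.P →
      y = 4 * s.nc ∨ y = 4 * s.nc + 4 ∨ ((y ∈ g.V.I ∨ y ∈ g.V.P) ∧ y ≠ 0 ∧ y < 4 * s.nc) := by
    intro y
    rw [mem_I, mem_P]
    grind
  have hV : ∀ z, z ∈ (nG x s g a k k').H.G.V ↔
      z = 4 * s.nc + 4 ∨ z = 4 * s.nc ∨ z ∈ g.H.G.V := fun z => by
    simp [nG, Hs.pair, OG.arc, OG.node]
  have hw : ∀ z, (nG x s g a k k').H.w z =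
      if z = 4 * s.nc + 4 then 1 else if z = 4 * s.nc then -1 else g.H.w z := fun z => by
    simp only [nG, Hs.pair, Function.update_apply]
  have hsl : (nG x s g a k k').H.G.slot = g.H.G.slot := rfl
  have hsc : (nG x s g a k k').H.G.scn = g.H.G.scn := rfl
  have hO : ∀ z, z ∈ (nG x s g a k k').H.O ↔ z = 4 * s.nc + 4 ∨ z ∈ g.H.O := fun z => mem_insert
  have hnc : (nS s w v ns).nc = s.nc + 2 := rfl
  refine
    { net := hn
      gh := h.gh.pair t.aO now.2.2 now.2.1 hy.1 hm.1 (by omega) (h.lk.P ▸ hm.2.2)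
      lk := ?_
      own := fun z hz => ?_
      self := fun y hy' => ?_
      mem := fun y hy' => ?_
      inn := fun z hz => ?_
      out := fun z hz => ?_
      node := fun p hp => ?_
      nx := ⟨h.nx.1, ?_⟩
      arc := fun j hj => ?_
      pmo := fun z hz => ?_
      ndO := fun z hz => ?_
      jk := fun z hz => (t.res_old (h.rng z (h.gh.JV hz)).1).trans (h.jk z hz)
      rng := fun z hz => ?_
      cop := fun j h0 hj => ?_
      sl := fun z hz => by rw [vn_old (h.rng z (h.gh.slotV hz)).1]; exact h.sl z hz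
      pend := fun z hz i hi => ?_
      now := fun _ e => by cases e
      nw := ⟨List.nodup_singleton _, fun z hz => ?_⟩
      cnt := ?_
      dis := ?_
      cm := h.cm
      acc := ?_
      hall := ?_
      debt := ?_ }
  · have l := h.lk.pair h.gh h.ok (k := k) (k' := k') (m := 4 * s.nc + 4) t.aO (k3 ▸ hy.1) hm.1
      (by omega) (t.k3'.trans k3.symm) t.kk
    rwa [k3, h.ndO a t.aO] at l
  · rw [mem_I, mem_P, hnc]
    by_cases e : z = v
    · subst e
      rw [own_eq, cid_eq, if_pos rfl, if_pos rfl, vn_m]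
      exact ⟨t.vn, .inr (.inl rfl), by omega, by omega, rfl⟩
    · by_cases e' : z = w
      · subst e'
        rw [own_eq, cid_eq, if_neg e, if_neg e, if_pos rfl, if_pos rfl, vn_y]
        exact ⟨t.wn, .inl (.inl k3.symm), by omega, by omega, rfl⟩
      · rw [own_eq, if_neg e, if_neg e'] at hz
        obtain ⟨a1, a2, a3, a4, a5⟩ := h.own z hz
        rw [(t.old hz).1, (t.old hz).2, vn_old a4]
        exact ⟨a1, a2.imp .inr .inr, a3, by omega, a5⟩
  · rcases tri y hy' with rfl | rfl | ⟨a1, a2, a3⟩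
    · rw [vn_y, own_eq, cid_eq]; simp [ne.symm]
    · rw [vn_m, own_eq, cid_eq]; simp
    · have b := h.self y a1
      have c := t.old (ns := ns) (z := s.vn y) (b.1.symm ▸ a2)
      rw [vn_old a3, c.1, c.2]
      exact b
  · simp only [own_eq]
    simp only [upd, Arr.get_set]
    rcases tri y hy' with rfl | rfl | ⟨a1, a2, a3⟩
    · simp only [show ¬ 4 * s.nc = 4 * s.nc + 4 by omega, if_false, if_true, List.mem_singleton]
      refine ⟨List.nodup_singleton _, fun z => ?_, rfl⟩
      have := hl z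
      grind
    · simp only [if_true, List.mem_singleton]
      refine ⟨List.nodup_singleton _, fun z => ?_, rfl⟩
      have := hl z
      grind
    · obtain ⟨b1, b2, b3⟩ := h.mem y a1
      simp only [show ¬ y = 4 * s.nc + 4 by omega, show ¬ y = 4 * s.nc by omega, if_false]
      refine ⟨b1, fun z => (b2 z).trans ?_, b3⟩
      grind
  · rw [mem_I, own_eq] at hz
    rw [own_eq, cid_eq]
    have := h.inn z
    have := hl z
    have := hm.2.1
    grind
  · rw [mem_P, own_eq] at hz
    rw [hO, cid_eq]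
    have := h.out z
    have := hl z
    have := hy.2.2
    grind
  · simp only [own_eq]
    show s.bs.Node x.n x.A ((s.top.set (4 * s.nc + 4) v).get p) ∧
      ∀ z, z ∈ s.bs.V x.n ((s.top.set (4 * s.nc + 4) v).get p) ↔ _
    rcases mem_P.1 hp with rfl | hp
    · rw [Arr.get_set_self, s.bs.V_leaf t.vn]
      refine ⟨.leaf t.vn h.nx.1, fun z => ?_⟩
      have := hl z
      grind
    · have := nP p hp
      rw [Arr.get_set_ne _ (by omega)]
      refine ⟨(h.node p hp).1, fun z => ((h.node p hp).2 z).trans ?_⟩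
      grind
  · have := h.nx.2
    have := card_insert_le (k / 3) g.V.I
    show s.bs.nx + (insert (k / 3) g.V.I).card ≤ x.n + (s.nc + 2)
    omega
  · unfold S.nb
    by_cases e : j = k'
    · subst e
      rw [t.k3', vn_y, t.kd'.2, tl_eq, if_pos rfl, (t.old (t.ua ▸ (nP _ t.aP).1)).1]
      exact ⟨t.kd'.1, t.ua⟩
    · by_cases e' : j = k
      · subst e'
        rw [k3, vn_y, t.kd.2, tl_eq, if_neg e, if_pos rfl, own_eq, if_pos rfl]
        exact ⟨t.kd.1, rfl⟩
      · rw [tl_eq, if_neg e, if_neg e'] at hj ⊢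
        have b := h.arc j hj
        rw [vn_old (nI _ (h.ok.arc j hj).2).2]
        exact ⟨b.1, (t.old (z := s.nb x.toPr j) (b.2 ▸ hj)).1.trans b.2⟩
  · have e : ∀ z, z ∈ (nS s w v ns).un x.n ↔ z ∈ s.un x.n ∧ z ≠ v ∧ z ≠ w := fun z => by
      rw [mem_un, mem_un, own_eq]
      show _ ∧ _ ∧ s.mt.get z ≠ z ↔ _
      grind
    rw [e] at hz
    obtain ⟨b1, b2, b3, b4⟩ := h.pmo z hz.1
    refine ⟨(e _).2 ⟨b1, fun c : s.mt.get z = v => hz.2.2 ?_, fun c : s.mt.get z = w => hz.2.1 ?_⟩,
      b2, b3, b4⟩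
    · rw [← b2, c, t.mv]
    · rw [← b2, c, t.mw]
  · show Function.update g.H.nd (4 * s.nc + 4) (4 * s.nc + 4) z = _
    rcases (hO z).1 hz with rfl | hz
    · rw [Function.update_self, res_m]
    · have := (h.rng z (h.gh.OV hz)).1
      rw [Function.update_of_ne (by omega), t.res_old this, h.ndO z hz]
  · rw [hV] at hz
    rw [hw, hnc]
    have := h.rng z
    grind
  · rw [hV]
    have := h.cop j h0
    rw [hnc] at hj
    grind
  · rw [mem_P, own_eq] at hz
    by_cases e : z = v
    · exact .inr (.inr (.inr (by rw [cid_eq, if_pos e]; exact List.mem_singleton_self _)))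
    · have hz' : s.own.get z ∈ g.V.P := by
        have := hl z
        have := hy.2.2
        grind
      have h0 := (nP _ hz').1
      rw [(t.old h0).2, hsl, hsc]
      rcases h.pend z hz' i hi with d | d | d | d
      · exact .inl (t.done h0 d)
      · exact .inr (.inl d)
      · obtain rfl := Option.some.inj d
        have := deg_le3 x.toPr z
        have b := h.res_cid (i := 1 + i) h0 (by omega)
        have c := (h.own z h0).2.2.1
        have f := t.far
        rw [← add_assoc] at b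
        unfold S.far at f
        rw [b.1, show (s.cid.get z + 1 + i) % 4 - 1 = i by omega] at f
        refine .inl (.inr (.inr ⟨k', ?_, ?_⟩))
        · rw [f, own_eq, if_neg ne.symm, if_pos rfl, t.k3']
        · rw [tl_eq, if_pos rfl, (t.old h0).1, b.2]
      · cases d
  · obtain rfl := List.mem_singleton.1 hz
    refine ⟨(hO _).2 (.inl rfl), by omega, fun i _ => ?_⟩
    rw [hV]
    have := (h.new (a := 4 * s.nc + 4 + 1 + i) (by omega)).1
    grind
  · have := h.cnt
    rw [t.live_eq, card_insert_of_notMem (by simp [mem_live, ow, ne.symm]),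
      card_insert_of_notMem (by simp [mem_live, ov]), hnc]
    show _ = _ + g.vj + 1
    omega
  · refine Eq.trans (congrArg card ?_) h.dis
    ext z
    have := t.mv
    have := t.mw
    rw [mem_disc, mem_disc, own_eq]
    show _ ∧ _ ∧ s.mt.get z = z ↔ _
    grind
  · have e : (nG x s g a k k').H.wJ = g.H.wJ := sum_congr rfl fun z hz => by
      have := (h.rng z (h.gh.JV hz)).1
      rw [hw, if_neg (by omega), if_neg (by omega)]
    rw [e]
    exact h.acc
  · have b : Beta g.V (nS s w v ns).sz.get x.U x.al g.be :=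
      Beta.mono (vol := s.sz.get) h.hall le_rfl le_rfl fun z hz =>
        (sz_old (h.name hz).2.1).ge
    exact P305SC.beta_add (P305SC.beta_pair b h.ok hm.2.2 (by omega) (k3 ▸ hy.2.1))
      ((Function.update_of_ne t.kk.symm _ _).trans (t.tl_k t.k3'))
  · refine le_trans (le_of_eq ?_) h.debt
    show ∑ z ∈ insert (4 * s.nc + 4) g.V.P, (nG x s g a k k').V.dt z +
      ∑ z ∈ insert (k / 3) g.V.I, (nG x s g a k k').V.dt z = _
    rw [sum_insert hm.2.2, sum_insert (k3 ▸ hy.2.1), sum_congr rfl fun z hz =>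
      show (nG x s g a k k').V.dt z = g.V.dt z by have := nP z hz; rw [dt_eq]; grind,
      sum_congr rfl fun z hz =>
      show (nG x s g a k k').V.dt z = g.V.dt z by have := nI z hz; rw [dt_eq]; grind]
    simp [dt_eq, P305N.Vw.dts]

theorem lev (t : Sit x s g a w v k k') {lv : ℕ → PL} {L D Mt : ℕ}
    (l : Lev L D (fv s g) lv [] Mt) : Lev L D (fv (nS s w v ns) (nG x s g a k k')) lv [] Mt := by
  have h := t.h
  have k3 := t.k3
  have hc := h.nc_pos
  have nm : ∀ z ∈ (fv s g).live, z < 4 * s.nc := fun z hz => (h.name (mem_union.1 hz)).2.1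
  refine l.keep [] (show 4 * s.nc ≤ 4 * (s.nc + 2) by omega) (by simp) (fun y hy z hz => ?_)
    (fun y hy => ?_) fun y _ hy => (sz_old (w := w) (v := v) (ns := ns) (nm y hy)).ge
  · show (nS s w v ns).res z = y ↔ s.res z = y ∧ _
    rw [t.res_old hz]
    refine ⟨fun e => ⟨e, e ▸ h.fv_ok.own z fun e0 : s.res z = 0 => ?_⟩, fun e => e.1⟩
    have h0 := h.fv_ok.zero
    have := mem_union.1 hy
    rw [mem_I, mem_P, ← e, e0] at this
    have := h.ok.zI
    have := h.ok.zP
    grind
  · show (nG x s g a k k').V.dt y = (if y ∈ g.V.I ∪ g.V.P then g.V.dt y else 0) + 0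
    have := mem_union.1 hy
    have := nm y
    rw [mem_I, mem_P] at *
    rw [dt_eq]
    simp only [fv, mem_union] at *
    grind

theorem psi (t : Sit x s g a w v k k') : (nS s w v ns).psi x ≤ s.psi x + 2 * (x.b + 2) := by
  unfold S.psi
  rw [t.live_eq, sum_insert (by simp [mem_live, t.ow, t.ne.symm]),
    sum_insert (by simp [mem_live, t.ov]), sum_congr rfl fun z hz => by
      rw [(t.old (mem_live.1 hz).2).1, sz_old (t.own_lt z)]]
  omega

end Sit

end Vale.Agent.P305PR
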