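import Vale.Agent.P305PR.Core

/-!
# A matched edge is labelled: the program
-/

namespace Vale.Agent.P305PR

open Vale.Agent.P305 Vale.Agent.P305E Vale.Agent.P305C Vale.Agent.P305LC Vale.Agent.P305N
  Vale.Agent.P305BL Vale.Agent.P305GH Vale.Agent.P305BG Vale.Agent.P305O Vale.Agent.P305GL Finset
open Vale.Agent.P305FL (PL Lev pot)

variable {β : Type} [Rep β]

/-- The program; `w` is the far end of the slot `a`, `v` is the partner of `w`. -/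
def go (E : Env β) (sl : Pr → S → List ℕ → β → M β) (p : Pr) (σ : Fs β) (a w v : ℕ) : M (Fs β) :=
  num (4 * σ.1.nc) >>= fun y => num (4 * σ.1.nc + 4) >>= fun m => num (σ.1.nc + 2) >>= fun c =>
    num (3 * y + p.idx w v) >>= fun k => num (3 * y + p.idx w (σ.1.vn a)) >>= fun k' =>
      E.N.pair p.b p.U σ.1.ns k m >>= fun ns => P305SC.pairP E.X p.Q p.F a y m σ.2.2 >>= fun bx =>
        sl p (upd σ.1 w v y m c (E.N.add ns k' (σ.1.res a))) [m] bx >>= fun bx' =>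
          pure (upd σ.1 w v y m c (E.N.add ns k' (σ.1.res a)), σ.2.1, bx')

theorem impl_go (E : Env β) {sl : Pr → S → List ℕ → β → M β} (h : SlotsOK E sl) :
    Impl fun p : Pr × Fs β × ℕ =>
      go E sl p.1 p.2.1 p.2.2 (p.2.1.1.far p.1 p.2.2) (p.2.1.1.mt.get (p.2.1.1.far p.1 p.2.2)) := by
  have a : ∀ {α : Type} [Rep α] {s : α → NT} {k q : α → ℕ}, Pure s → Pure k → Pure q →
      Pure fun z => E.N.add (s z) (k z) (q z) := fun {_} _ {s k q} h1 h2 h3 =>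
    E.hN.iadd.comp (g := fun z => (s z, k z, q z)) (by fun_prop)
  unfold go
  refine Impl.bind (by fun_prop) (Impl.bind (by fun_prop) (Impl.bind (by fun_prop)
    (Impl.bind (by fun_prop) (Impl.bind (by fun_prop) (Impl.bind ?_ (Impl.bind ?_
      (Impl.bind ?_ (Impl.pure ?_))))))))
  · exact E.hN.ipair.comp (g := fun z : (((((Pr × Fs β × ℕ) × ℕ) × ℕ) × ℕ) × ℕ) × ℕ =>
      (z.1.1.1.1.1.1.b, z.1.1.1.1.1.1.U, z.1.1.1.1.1.2.1.1.ns, z.1.2, z.1.1.1.2)) (by fun_prop)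
  · refine P305SC.impl_pairP E.hX ?_ ?_ ?_ ?_ ?_ ?_ <;> fun_prop
  · refine h.impl.comp (g := fun z : (((((((Pr × Fs β × ℕ) × ℕ) × ℕ) × ℕ) × ℕ) × ℕ) × NT) × β =>
      (_, _, _, _)) (Pure.pair ?_ (Pure.pair (pure_upd ?_ ?_ ?_ ?_ ?_ ?_ (a ?_ ?_ ?_)) ?_)) <;>
      fun_prop
  · refine Pure.pair (pure_upd ?_ ?_ ?_ ?_ ?_ ?_ (a ?_ ?_ ?_)) ?_ <;> fun_prop

/-- **PAIR.** -/
theorem pair (hs : SLOTS) : PAIR := fun β _ E => by
  obtain ⟨sl, h⟩ := hs β E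
  refine ⟨fun p σ a => go E sl p σ a (σ.1.far p a) (σ.1.mt.get (σ.1.far p a)), impl_go E h, ?_⟩
  rintro x ⟨s, lv, bx⟩ g φ a o ⟨c, ⟨Mt, hM, l⟩, φb, hb, rfl⟩ hr h0 h1
  dsimp only at c hM l hb hr h0 h1 ⊢
  have now := c.now a rfl
  obtain ⟨s1, s2, s3, -, -, s6⟩ := c.slot o now.1 hr
  have s7 := o.adj.gr.symm s6
  obtain ⟨p1, p2, p3, p4⟩ := c.pmo _ (mem_un.2 ⟨o.adj.gr.lt s7, h0, h1⟩)
  generalize hw : s.far x.toPr a = w at *
  generalize hv : s.mt.get w = v at *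
  have i1 := idx_lt3 x.toPr w v
  have i2 := idx_lt3 x.toPr w (s.vn a)
  have k3 : (3 * (4 * s.nc) + x.idx w v) / 3 = 4 * s.nc := by omega
  have k3' : (3 * (4 * s.nc) + x.idx w (s.vn a)) / 3 = 4 * s.nc := by omega
  have t : Sit x s g a w v (3 * (4 * s.nc) + x.idx w v) (3 * (4 * s.nc) + x.idx w (s.vn a)) :=
    ⟨c, s1, s3, hw, o.adj.gr.lt s7, (mem_un.1 p1).1, h0, (mem_un.1 p1).2.1, hv, p2, p3, k3, k3',
      by rw [show (3 * (4 * s.nc) + x.idx w v) % 3 = x.idx w v by omega]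
         exact ⟨o.idx_lt p4, o.nbr_idx p4⟩,
      by rw [show (3 * (4 * s.nc) + x.idx w (s.vn a)) % 3 = x.idx w (s.vn a) by omega]
         exact ⟨o.idx_lt s7, o.nbr_idx s7⟩⟩
  have n1 := c.nc_le o
  have n2 := c.nc_pos
  have n3 := o.sz
  have n4 := o.pow_le
  have n5 := c.size_lt o
  have n6 := o.QF
  have n7 := o.Fb
  have hy := c.new (a := 4 * s.nc) le_rfl
  have hm := c.new (a := 4 * s.nc + 4) (by omega)
  unfold go
  dsimp only
  refine Vt.num_bind (by omega) (Vt.num_bind (by omega) (Vt.num_bind (by omega)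
    (Vt.num_bind (by omega) (Vt.num_bind (by omega) (Vt.tbind (E.hN.pair x.B x.b x.U g.V s.ns _ _
      c.net (by omega) (by omega) hm.2.1 hm.2.2 (by omega) (by omega) (k3.symm ▸ hy.2.1)
      (k3.symm ▸ hy.2.2) (by omega) o.wN) ?_)))))
  rintro ns t1 ⟨a1, a2⟩
  have c' := t.core (E.hN.add _ _ _ _ _ _ a1
    ((Function.update_of_ne t.kk.symm _ _).trans (t.tl_k k3'))
    (mem_insert.2 (.inl (k3'.trans k3.symm))) (mem_insert_of_mem s2))
  refine (P305SC.pairP_vt E.hX (4 * s.nc + 4) hb (c.gh.OV s1) hy.1 hm.1 (by omega) (by omega)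
    (by omega) n7).bind ?_
  rintro bx1 t2 ⟨φ1, b1, b2⟩
  refine (h.spec x _ _ none _ bx1 φ1 o c' b1).bind ?_
  rintro bx2 t3 ⟨H', φ2, d1, d2, d3, d4⟩
  refine Vt.pure ⟨_, _, ⟨d1, ⟨Mt, hM, t.lev l⟩, φ2, d2, rfl⟩, d3, ?_⟩
  have e1 := Nat.mul_le_mul_left x.La ((t.psi (ns := E.N.add ns
    (3 * (4 * s.nc) + x.idx w (s.vn a)) (s.res a))).trans
      (Nat.add_le_add_left (Nat.mul_le_mul_left 2 o.bG) _))
  have e2 := o.mul_pow_le (a := 8) (i := 2) (j := 13) (by omega) (by omega)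
  have e3 : x.Γ ≤ x.Γ ^ 2 := Nat.le_self_pow (by norm_num) _
  have e4 : x.La * x.Γ = x.Γ ^ 13 := (pow_succ _ _).symm
  have e5 := o.gX
  have e6 := o.gN
  rw [mul_add, mul_left_comm x.La 2, e4] at e1
  rw [mul_assoc 3, e4]
  simp only [List.length_singleton] at d4
  show _ + (φ2 + x.La * (nS s w v _).psi x + x.Cf * pot x.b lv.get + x.La * x.U * (x.c - s.cm)) ≤ _
  omega

end Vale.Agent.P305PR
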